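import Vale.Agent.P224.MathlibUsed
import Vale.Agent.P224.Defs
import Vale.Agent.P224.Bdl.B5

namespace Vale.Agent.Results.P224.VolumeGaps

open scoped Manifold ContDiff RealInnerProductSpace
open MeasureTheory Module Vale.Agent.P224

/-- The linear isometries which preserve the image of F. -/
def Isoms {M W : Type*} [NormedAddCommGroup W] [InnerProductSpace ℝ W] (F : M → W) :
    Set (W ≃ₗᵢ[ℝ] W) :=
  {g | g '' Set.range F = Set.range F}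

/-- The reflections in hyperplanes through the origin which preserve the image of F. -/
def Reflections {M W : Type*} [NormedAddCommGroup W] [InnerProductSpace ℝ W] [FiniteDimensional ℝ W]
    (F : M → W) : Set (W ≃ₗᵢ[ℝ] W) :=
  {g | g ∈ Isoms F ∧ ∃ e : W, e ≠ 0 ∧ g = (ℝ ∙ e)ᗮ.reflection}

theorem result {V W M : Type*}
    [NormedAddCommGroup V] [InnerProductSpace ℝ V] [FiniteDimensional ℝ V]
    [MeasurableSpace V] [BorelSpace V]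
    [NormedAddCommGroup W] [InnerProductSpace ℝ W] [FiniteDimensional ℝ W]
    (hV : 2 ≤ finrank ℝ V) (hW : finrank ℝ W = finrank ℝ V + 2)
    [TopologicalSpace M] [T2Space M] [CompactSpace M] [ConnectedSpace M]
    [ChartedSpace V M] [IsManifold 𝓘(ℝ, V) ∞ M] [MeasurableSpace M] [BorelSpace M]
    (F : M → W) (hF : ContMDiff 𝓘(ℝ, V) 𝓘(ℝ, W) ∞ F) (hS : ∀ x, ‖F x‖ = 1)
    (himm : ∀ x, Function.Injective (mfderiv 𝓘(ℝ, V) 𝓘(ℝ, W) F x))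
    (hmin : ∀ x n, IsUnitNormal V F x n → meanCurv V F x n = 0) :
    ((¬ ∃ a : W, a ≠ 0 ∧ ∀ x, ⟪F x, a⟫ = 0) →
      ENNReal.ofReal (6 / 5 * sphereVol (finrank ℝ V)) ≤ volM V F Set.univ ∧
      ENNReal.ofReal (0.76 * leastClifford (finrank ℝ V)) ≤ volM V F Set.univ ∧
      (12 ≤ finrank ℝ V →
        ENNReal.ofReal (0.83 * leastClifford (finrank ℝ V)) ≤ volM V F Set.univ)) ∧
    (∀ N : M → W, ContMDiff 𝓘(ℝ, V) 𝓘(ℝ, W) ∞ N → (∀ x, IsUnitNormal V F x (N x)) →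
      ∀ z, 36 * sphereVol (finrank ℝ V) ^ 2 ≤
        25 * (volM V F).real Set.univ ^ 2 + 11 * (∫ x, ⟪N x, N z⟫ ∂(volM V F)) ^ 2) ∧
    (∀ c : ℝ, (∀ x n, IsUnitNormal V F x n → normSqA V F x n = c) →
      (¬ ∃ a : W, a ≠ 0 ∧ ∀ x, ⟪F x, a⟫ = 0) →
      ENNReal.ofReal (leastClifford (finrank ℝ V)) ≤ volM V F Set.univ) ∧
    ((∀ x n, IsUnitNormal V F x n → (finrank ℝ V : ℝ) ≤ normSqA V F x n) →
      ENNReal.ofReal (leastClifford (finrank ℝ V)) ≤ volM V F Set.univ) ∧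
    1 ≤ volM V F {x | ∀ n, IsUnitNormal V F x n → (finrank ℝ V : ℝ) ≤ normSqA V F x n} /
        ENNReal.ofReal (leastClifford (finrank ℝ V)) +
      volM V F {x | ∀ n, IsUnitNormal V F x n → (finrank ℝ V : ℝ) ≤ normSqA V F x n}ᶜ /
        ENNReal.ofReal (sphereVol (finrank ℝ V)) ∧
    (∀ N : M → W, ContMDiff 𝓘(ℝ, V) 𝓘(ℝ, W) ∞ N → (∀ x, IsUnitNormal V F x (N x)) →
      (∀ a, ∫ x, ⟪N x, a⟫ ∂(volM V F) = 0) →
      ENNReal.ofReal (0.95 * leastClifford (finrank ℝ V)) ≤ volM V F Set.univ ∧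
      ((∀ a b, ∫ x, ⟪F x, a⟫ * ⟪N x, b⟫ ∂(volM V F) = 0) →
        ENNReal.ofReal (leastClifford (finrank ℝ V)) ≤ volM V F Set.univ)) ∧
    ((¬ ∃ a : W, a ≠ 0 ∧ ∀ x, ⟪F x, a⟫ = 0) →
      (∀ v : W, (∀ g ∈ Isoms F, g v = v ∨ g v = -v) → (∀ g ∈ Reflections F, g v = v) → v = 0) →
      ENNReal.ofReal (0.95 * leastClifford (finrank ℝ V)) ≤ volM V F Set.univ) ∧
    ((∀ U : Submodule ℝ W, (∀ g ∈ Isoms F, ∀ u ∈ U, g u ∈ U) → U = ⊥ ∨ U = ⊤) →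
      (∀ U : Submodule ℝ W, (∀ g ∈ Isoms F, ∀ u ∈ U, g (g u) ∈ U) →
        (∀ g ∈ Reflections F, ∀ u ∈ U, g u ∈ U) → 2 * finrank ℝ U ≠ finrank ℝ W) →
      ENNReal.ofReal (leastClifford (finrank ℝ V)) ≤ volM V F Set.univ) :=
  ⟨fun hng => PM.main_frac hV hW ⟨hF, hS, himm⟩ hmin hng,
    fun _ hNs hN z => PM.main_pt hV hW ⟨hF, hS, himm⟩ hmin hNs hN z,
    fun c hc hng => main_CSC hV hW ⟨hF, hS, himm⟩ hmin c hc hng,
    main_A hV hW ⟨hF, hS, himm⟩ hmin, main_B hV hW ⟨hF, hS, himm⟩ hmin,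
    fun _ hNs hN h0 => FV.main_C hV hW ⟨hF, hS, himm⟩ hmin hNs hN h0,
    fun hng hv => (Sym.main_F hV hW ⟨hF, hS, himm⟩ hmin hng fun v h1 h2 => hv v h1 (by
      rintro g ⟨hg, e, -, rfl⟩
      exact Vale.Agent.P224.Sym.refl_fix (h2 e hg))).1,
    fun hirr hsq => Sym.main_G hV hW ⟨hF, hS, himm⟩ hmin hirr fun U h1 h2 => hsq U h1 (by
      rintro g ⟨hg, e, -, rfl⟩ u hu
      exact h2 e hg u hu)⟩

end Vale.Agent.Results.P224.VolumeGaps
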